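import Vale.Agent.P065.Count

/-!
Hand-in: k-sets and halving lines of point sets covered by few convex-position classes.
-/

namespace Vale.Agent.Results.P065.ConvexCover

open Vale.Agent.P065

/-- If `P` (no three collinear) is covered by `L` subsets in convex position and a remainder `R`
with no more than `M` points in convex position, then it has at most `2n(4L+M)+2` `k`-sets and
at most `n(4L+M)` halving lines. -/
theorem result :
    ∀ (P : Finset (ℝ × ℝ)), NoThree P → ∀ (L M : ℕ) (C : Fin L → Finset (ℝ × ℝ))
      (R : Finset (ℝ × ℝ)),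
      (∀ i, C i ⊆ P) → (∀ i, InConvexPosition (C i)) →
      (∀ V ⊆ R, InConvexPosition V → V.card ≤ M) →
      (∀ p ∈ P, (∃ i, p ∈ C i) ∨ p ∈ R) →
      (∀ k, 1 ≤ k → k < P.card → (kSets P k).ncard ≤ 2 * P.card * (4 * L + M) + 2) ∧
        (halvingPairs P).ncard ≤ P.card * (4 * L + M) :=
  main

end Vale.Agent.Results.P065.ConvexCover
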